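import Vale.Agent.P165.EX.Semi.Transfer
import Mathlib.RingTheory.SimpleModule.Basic
import Mathlib.LinearAlgebra.Eigenspace.Triangularizable

/-!
# Burnside's theorem for matrix groups

Over an algebraically closed field an irreducible image spans all matrices.
-/

namespace Vale.Agent.P165.EX.Chev

open Matrix Module
open scoped MatrixGroups

variable {k : Type} [Field k] [IsAlgClosed k] {n : ℕ} {Γ : Type} [Group Γ]

/-- The image of an irreducible representation spans all endomorphisms. -/
theorem span_eq_top {V : Type} [AddCommGroup V] [Module k V] [FiniteDimensional k V] [Nontrivial V]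
    (σ : Γ →* Module.End k V)
    (hirr : ∀ W : Submodule k V, (∀ g, ∀ v ∈ W, σ g v ∈ W) → W = ⊥ ∨ W = ⊤) :
    Submodule.span k (Set.range σ) = ⊤ := by
  classical
  set A := Algebra.adjoin k (Set.range σ) with hA
  have hAs : Subalgebra.toSubmodule A = Submodule.span k (Set.range σ) := by
    rw [hA, Algebra.adjoin_eq_span, ← MonoidHom.coe_mrange, Submonoid.closure_eq]
  have hmem : ∀ g, σ g ∈ A := fun g => Algebra.subset_adjoin ⟨g, rfl⟩
  have hsub : ∀ N : Submodule A V, N = ⊥ ∨ N = ⊤ := by
    intro N
    rcases hirr (N.restrictScalars k) (fun g v hv => N.smul_mem ⟨σ g, hmem g⟩ hv) with h | h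
    · exact Or.inl (Submodule.restrictScalars_injective k A V (by
        rw [h, Submodule.restrictScalars_bot]))
    · exact Or.inr (Submodule.restrictScalars_injective k A V (by
        rw [h, Submodule.restrictScalars_top]))
  have : IsSimpleModule A V := { eq_bot_or_eq_top := hsub }
  have hscal : ∀ f : Module.End A V, ∃ μ : k, ∀ v, f v = μ • v := by
    intro f
    set f' : Module.End k V := f.restrictScalars k
    obtain ⟨μ, hμ⟩ := Module.End.exists_eigenvalue f'
    refine ⟨μ, fun v => ?_⟩
    have hinv : ∀ g, ∀ w ∈ Module.End.eigenspace f' μ, σ g w ∈ Module.End.eigenspace f' μ := by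
      intro g w hw
      rw [Module.End.mem_eigenspace_iff] at hw ⊢
      change f ((⟨σ g, hmem g⟩ : A) • w) = μ • σ g w
      rw [map_smul]
      change σ g (f' w) = _
      rw [hw, map_smul]
    rcases hirr _ hinv with h | h
    · exact absurd h hμ
    · exact Module.End.mem_eigenspace_iff.1 (h ▸ Submodule.mem_top)
  rw [← hAs, eq_top_iff]
  rintro T -
  let T' : Module.End (Module.End A V) V :=
    { toFun := T
      map_add' := map_add T
      map_smul' := fun f v => by
        obtain ⟨μ, hμ⟩ := hscal f
        simp only [Module.End.smul_def, RingHom.id_apply, hμ, map_smul] }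
  set b := Module.finBasis k V
  obtain ⟨r, hr⟩ := jacobson_density T' (Finset.univ.image b)
  have hrT : (r : Module.End k V) = T :=
    b.ext fun i => (hr (b i) (Finset.mem_image_of_mem _ (Finset.mem_univ i))).symm
  exact hrT ▸ r.2

/-- An irreducible image spans all matrices. -/
theorem spanning_of_irreducible (ρ : Γ →* SL(n, k))
    (hirr : ∀ W, Semi.Invariant (Semi.matRep ρ) W → W = ⊥ ∨ W = ⊤) : Semi.Spanning ρ := by
  rcases Nat.eq_zero_or_pos n with rfl | hn
  · exact Submodule.eq_top_iff'.2 fun A => by
      rw [show A = 0 from Matrix.ext fun i => i.elim0]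
      exact Submodule.zero_mem _
  have : Nonempty (Fin n) := ⟨⟨0, hn⟩⟩
  let e : Matrix (Fin n) (Fin n) k ≃ₐ[k] Module.End k (Fin n → k) := Matrix.toLinAlgEquiv'
  let σ : Γ →* Module.End k (Fin n → k) := e.toAlgHom.toMonoidHom.comp (Semi.matRep ρ)
  have hσ : ∀ g v, σ g v = Semi.matRep ρ g *ᵥ v := fun g v => Matrix.toLinAlgEquiv'_apply _ v
  have key := span_eq_top σ fun W hW => hirr W fun g v hv => (hσ g v) ▸ hW g v hv
  refine Submodule.eq_top_iff'.2 fun A => ?_
  have h : e A ∈ Submodule.map e.toLinearMap
      (Submodule.span k (Set.range fun g => (ρ g : Matrix (Fin n) (Fin n) k))) := by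
    rw [Submodule.map_span, ← Set.range_comp]
    exact (key ▸ Submodule.mem_top : e A ∈ Submodule.span k (Set.range σ))
  obtain ⟨B, hB, hBA⟩ := h
  rwa [← e.injective hBA]

end Vale.Agent.P165.EX.Chev
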