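import Vale.Agent.P165.EX.Chev.Tangent

/-!
# Functions killed by all derivations are constant
-/

namespace Vale.Agent.P165.EX.Chev

open TrivSqZeroExt Polynomial

/-- In characteristic zero a transcendental element has a derivation taking the value one at it. -/
theorem exists_dual {k A : Type} [Field k] [CharZero k] [Field A] [Algebra k A]
    [Algebra.EssFiniteType k A] {t : A} (ht : Transcendental k t) :
    ∃ φ : A →ₐ[k] TrivSqZeroExt A A, (∀ a, fst (φ a) = a) ∧ snd (φ t) = 1 := by
  let f : k[X] →ₐ[k] A := aeval t
  have hf : Function.Injective f := transcendental_iff_injective.1 ht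
  let g : RatFunc k →ₐ[k] A := IsFractionRing.liftAlgHom (A := k[X]) (K := RatFunc k) hf
  letI : Algebra (RatFunc k) A := g.toRingHom.toAlgebra
  letI : Algebra k[X] A := f.toRingHom.toAlgebra
  have : IsScalarTower k (RatFunc k) A := IsScalarTower.of_algebraMap_eq fun c => (g.commutes c).symm
  have : IsScalarTower k[X] (RatFunc k) A := IsScalarTower.of_algebraMap_eq fun p =>
    (IsFractionRing.lift_algebraMap (g := f.toRingHom) hf p).symm
  have : Algebra.EssFiniteType (RatFunc k) A := Algebra.EssFiniteType.of_comp k _ _
  have : Algebra.FormallyEtale k[X] (RatFunc k) :=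
    Algebra.FormallyEtale.of_isLocalization (nonZeroDivisors k[X])
  have : Algebra.FormallySmooth k[X] A := Algebra.FormallySmooth.comp k[X] (RatFunc k) A
  let F : k[X] →ₐ[k] TrivSqZeroExt A A := aeval (inl t + inr 1)
  have hfst : ∀ p, fst (F p) = f p := fun p => by
    change ((fstHom k A A).comp F) p = f p
    congr 1
    exact Polynomial.algHom_ext (by simp [F, f])
  letI : Algebra k[X] (TrivSqZeroExt A A) := F.toRingHom.toAlgebra
  let π : TrivSqZeroExt A A →ₐ[k[X]] A :=
    { (fstHom k A A).toRingHom with commutes' := fun p => hfst p }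
  have hπ : Function.Surjective π := fun a => ⟨inl a, TrivSqZeroExt.fst_inl A a⟩
  have hnil : IsNilpotent (RingHom.ker (π : TrivSqZeroExt A A →+* A)) := by
    refine ⟨2, ?_⟩
    rw [Ideal.zero_eq_bot, Submodule.pow_succ, Submodule.pow_one, eq_bot_iff, Ideal.mul_le]
    intro x hx y hy
    rw [Ideal.mem_bot]
    have hx' : fst x = 0 := hx
    have hy' : fst y = 0 := hy
    refine TrivSqZeroExt.ext ?_ ?_ <;> simp [hx', hy', TrivSqZeroExt.snd_mul]
  let s := Algebra.FormallySmooth.liftOfSurjective (AlgHom.id k[X] A) π hπ hnil
  have hs : ∀ a, fst (s a) = a := fun a =>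
    Algebra.FormallySmooth.liftOfSurjective_apply (AlgHom.id k[X] A) π hπ hnil a
  refine ⟨{ s.toRingHom with commutes' := fun c => ?_ }, hs, ?_⟩
  · change s (algebraMap k A c) = _
    rw [show algebraMap k A c = algebraMap k[X] A (C c) from (aeval_C t c).symm, s.commutes]
    exact aeval_C _ c
  · change snd (s t) = 1
    rw [show s t = algebraMap k[X] (TrivSqZeroExt A A) X by
      rw [← s.commutes]; exact congrArg s (aeval_X t).symm]
    change snd (F X) = 1
    simp [F]

/-- An element killed by all derivations is a constant when the field is algebraically closed. -/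
theorem exists_const {k A : Type} [Field k] [CharZero k] [IsAlgClosed k] [Field A] [Algebra k A]
    [Algebra.EssFiniteType k A] {t : A}
    (h : ∀ φ : A →ₐ[k] TrivSqZeroExt A A, (∀ a, fst (φ a) = a) → snd (φ t) = 0) :
    ∃ c : k, algebraMap k A c = t := by
  by_cases ht : IsAlgebraic k t
  · exact minpoly.degree_eq_one_iff.1
      (IsAlgClosed.degree_eq_one_of_irreducible k (minpoly.irreducible ht.isIntegral))
  · obtain ⟨φ, h1, h2⟩ := exists_dual (k := k) ht
    rw [h φ h1] at h2
    exact absurd h2 zero_ne_one

end Vale.Agent.P165.EX.Chev
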