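import Vale.Agent.P165.EX.Chev.Constants

/-!
# Subspaces invariant under the tangent space are invariant under the group

For a polynomial representation of a group with prime vanishing ideal over an algebraically closed
field of characteristic zero: the coordinates of a subspace moved by the generic point are killed
by all derivations of the function field, so they are constant.
-/

namespace Vale.Agent.P165.EX.Chev

open Matrix Finset TrivSqZeroExt
open scoped MatrixGroups

variable {k : Type} [Field k] {n : ℕ} {Γ : Type} [Group Γ] {ν : Type} [Fintype ν] [DecidableEq ν]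

/-- A representation given by polynomials in the entries, multiplicative over all algebras. -/
structure PolyRep (k : Type) [Field k] (n : ℕ) (ν : Type) [Fintype ν] [DecidableEq ν] where
  mat : Matrix ν ν (MvPolynomial (Fin n × Fin n) k)
  map_mul : ∀ (R : Type) [CommRing R] [Algebra k R] (a b : Matrix (Fin n) (Fin n) R),
    mat.map (ev (a * b)) = mat.map (ev a) * mat.map (ev b)
  map_one : mat.map (ev (1 : Matrix (Fin n) (Fin n) k)) = 1

variable {R : Type} [CommRing R] [Algebra k R] (P : PolyRep k n ν)

/-- The differential at the identity. -/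
noncomputable def PolyRep.deriv (R : Type) [CommRing R] [Algebra k R] :
    Matrix (Fin n) (Fin n) R →ₗ[R] Matrix ν ν R where
  toFun y := Matrix.of fun s t => snd (ev (dual 1 y) (P.mat s t))
  map_add' a b := by ext s t; simp [snd_ev_dual, mul_add, sum_add_distrib]
  map_smul' c a := by ext s t; simp [snd_ev_dual, mul_sum, mul_left_comm]

theorem PolyRep.deriv_map (φ : R →ₗ[k] k) (y : Matrix (Fin n) (Fin n) R) :
    (P.deriv R y).map φ = P.deriv k (y.map φ) := by
  ext s t
  simp only [PolyRep.deriv, LinearMap.coe_mk, AddHom.coe_mk, Matrix.map_apply, Matrix.of_apply,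
    snd_ev_dual, map_sum]
  refine sum_congr rfl fun e _ => ?_
  rw [show ev (1 : Matrix (Fin n) (Fin n) R) (MvPolynomial.pderiv e (P.mat s t)) =
      algebraMap k R (ev (1 : Matrix (Fin n) (Fin n) k) (MvPolynomial.pderiv e (P.mat s t))) by
    rw [← show ⇑(Algebra.ofId k R) = algebraMap k R from rfl, ev_map,
      Matrix.map_one _ (map_zero _) (_root_.map_one _)], ← Algebra.smul_def, map_smul, smul_eq_mul]

/-- The derivative along a point moved by a tangent vector. -/
theorem PolyRep.snd_move (x y : Matrix (Fin n) (Fin n) R) :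
    (P.mat.map (ev (dual x (x * y)))).map snd = P.mat.map (ev x) * P.deriv R y := by
  have h : dual x (x * y) = x.map (inlAlgHom k R R) * dual 1 y := by
    rw [show x.map (inlAlgHom k R R) = dual x 0 from map_inl x, dual_mul, mul_one, zero_mul,
      add_zero]
  ext s t
  rw [h, P.map_mul, Matrix.map_apply, Matrix.mul_apply, Matrix.mul_apply, TrivSqZeroExt.snd_sum]
  refine sum_congr rfl fun u _ => ?_
  rw [Matrix.map_apply, Matrix.map_apply, ← ev_map, DualNumber.snd_mul]
  simp [PolyRep.deriv]

variable (ρ : Γ →* SL(n, k))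

/-- The vanishing ideal. -/
noncomputable def vanish : Ideal (MvPolynomial (Fin n × Fin n) k) :=
  ⨅ g, RingHom.ker (ev (ρ g : Matrix (Fin n) (Fin n) k))

theorem mem_vanish (f : MvPolynomial (Fin n × Fin n) k) :
    f ∈ vanish ρ ↔ ∀ g, ev (ρ g : Matrix (Fin n) (Fin n) k) f = 0 := by
  simp [vanish]

theorem vanish_prime (h : Semi.PrimeClosure ρ) : (vanish ρ).IsPrime where
  ne_top' ht := by
    have := (mem_vanish ρ 1).1 (ht ▸ Submodule.mem_top) 1
    simp at this
  mem_or_mem' {a b} hab := by
    simp only [mem_vanish] at hab ⊢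
    exact h a b fun g => mul_eq_zero.1 ((_root_.map_mul _ a b).symm.trans (hab g))

/-- A generic point of the closure over a field. -/
theorem exists_generic (hp : Semi.PrimeClosure ρ) :
    ∃ (A : Type) (_ : Field A) (_ : Algebra k A) (_ : Algebra.EssFiniteType k A)
      (x : Matrix (Fin n) (Fin n) A), IsPt ρ x ∧ ∀ f, ev x f = 0 → f ∈ vanish ρ := by
  have := vanish_prime ρ hp
  let Q := MvPolynomial (Fin n × Fin n) k ⧸ vanish ρ
  let π : MvPolynomial (Fin n × Fin n) k →ₐ[k] FractionRing Q :=
    (IsScalarTower.toAlgHom k Q (FractionRing Q)).comp (Ideal.Quotient.mkₐ k (vanish ρ))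
  have hev : ∀ f, ev ((gen (k := k)).map π) f = π f := fun f => by
    rw [← ev_map]
    exact congrArg π (congrFun (congrArg DFunLike.coe
      (MvPolynomial.algHom_ext (f := ev (gen (k := k))) (g := AlgHom.id k _) fun e => by
        simp [ev, gen])) f)
  refine ⟨FractionRing Q, inferInstance, inferInstance, inferInstance, (gen (k := k)).map π,
    fun f hf => ?_, fun f hf => ?_⟩
  · rw [hev]
    change algebraMap Q (FractionRing Q) (Ideal.Quotient.mk _ f) = 0
    rw [Ideal.Quotient.eq_zero_iff_mem.2 ((mem_vanish ρ f).2 hf), _root_.map_zero]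
  · rw [hev] at hf
    exact Ideal.Quotient.eq_zero_iff_mem.1
      (IsFractionRing.injective Q (FractionRing Q) (hf.trans (_root_.map_zero _).symm))

variable {ρ}

/-- A dual point above a point moves it by a tangent vector. -/
theorem tangent_of_dual {x : Matrix (Fin n) (Fin n) R} (hx : IsPt ρ x)
    (φ : R →ₐ[k] TrivSqZeroExt R R) (hφ : ∀ a, fst (φ a) = a) :
    x.adjugate * (x.map φ).map snd ∈ tangent ρ R ∧
      x.map φ = dual x (x * (x.adjugate * (x.map φ).map snd)) := by
  have h1 : x.map φ = dual x ((x.map φ).map snd) := by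
    ext i j <;> simp [dual, hφ]
  refine ⟨(mem_tangent_iff _).2 ?_, ?_⟩
  · have h := (hx.adjugate.map (inlAlgHom k R R)).mul (hx.map φ)
    rwa [h1, show x.adjugate.map (inlAlgHom k R R) = dual x.adjugate 0 from map_inl _, dual_mul,
      adjugate_mul, hx.det, one_smul, zero_mul, add_zero] at h
  · rw [← mul_assoc, mul_adjugate, hx.det, one_smul, one_mul]
    exact h1

/-- Leibniz for matrices. -/
theorem snd_map_mul {α β γ : Type} [Fintype β] (φ : R →ₐ[k] TrivSqZeroExt R R)
    (hφ : ∀ a, fst (φ a) = a) (U : Matrix α β R) (V : Matrix β γ R) :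
    ((U * V).map φ).map snd = (U.map φ).map snd * V + U * (V.map φ).map snd := by
  ext a c
  simp only [Matrix.map_apply, Matrix.add_apply, Matrix.mul_apply, map_sum, TrivSqZeroExt.snd_sum,
    _root_.map_mul, DualNumber.snd_mul, hφ]
  rw [← sum_add_distrib]
  exact sum_congr rfl fun _ _ => add_comm _ _

theorem snd_map_const {α β : Type} (φ : R →ₐ[k] TrivSqZeroExt R R) (U : Matrix α β k) :
    ((U.map (algebraMap k R)).map φ).map snd = 0 := by
  ext a c
  simp [TrivSqZeroExt.algebraMap_eq_inl']

/-- The stability of a subspace passes to tangent vectors over algebras. -/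
theorem stable_over {r : ℕ} (Wm : Matrix ν (Fin r) k) (Lm : Matrix (Fin r) ν k)
    (hW : ∀ y ∈ tangent ρ k, P.deriv k y * Wm = Wm * (Lm * (P.deriv k y * Wm)))
    {y : Matrix (Fin n) (Fin n) R} (hy : y ∈ tangent ρ R) :
    P.deriv R y * Wm.map (algebraMap k R) = Wm.map (algebraMap k R) *
      (Lm.map (algebraMap k R) * (P.deriv R y * Wm.map (algebraMap k R))) := by
  ext s b
  refine sub_eq_zero.1 ((Module.forall_dual_apply_eq_zero_iff k _).1 fun ψ => ?_)
  have hl : ∀ {α β γ : Type} [Fintype β] (U : Matrix α β k) (V : Matrix β γ R),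
      (U.map (algebraMap k R) * V).map ψ = U * V.map ψ := by
    intro α β γ _ U V
    ext a c
    simp [Matrix.mul_apply, ← Algebra.smul_def]
  have hr : ∀ {α β γ : Type} [Fintype β] (U : Matrix α β R) (V : Matrix β γ k),
      (U * V.map (algebraMap k R)).map ψ = U.map ψ * V := by
    intro α β γ _ U V
    ext a c
    simp only [Matrix.map_apply, Matrix.mul_apply, map_sum]
    exact sum_congr rfl fun _ _ => by
      rw [mul_comm, ← Algebra.smul_def, map_smul, smul_eq_mul, mul_comm]
  rw [map_sub, sub_eq_zero, ← Matrix.map_apply (f := ψ), ← Matrix.map_apply (f := ψ),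
    hr, hl, hl, hr, P.deriv_map]
  exact congrFun (congrFun (hW _ (tangent_map hy ψ)) s) b

/-- A quotient of two matrices with the same logarithmic derivative is killed by the derivation. -/
theorem snd_quot_eq_zero {α β : Type} [Fintype β] [DecidableEq β]
    (φ : R →ₐ[k] TrivSqZeroExt R R) (hφ : ∀ a, fst (φ a) = a) (N M : Matrix α β R)
    (T c : Matrix β β R) (hT : IsUnit T.det) (hNT : N * T = M)
    (hM : (M.map φ).map snd = M * c) (hc : (T.map φ).map snd = T * c) :
    (N.map φ).map snd = 0 := by
  have h := congrArg (fun X => (X.map φ).map snd) hNT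
  simp only [snd_map_mul φ hφ, hc, hM] at h
  rw [← Matrix.mul_assoc N, hNT, add_eq_right] at h
  rw [← Matrix.mul_one ((N.map φ).map snd), ← mul_nonsing_inv _ hT, ← Matrix.mul_assoc, h,
    Matrix.zero_mul]

/-- A subspace stable under the differentials of all tangent vectors is stable under the group. -/
theorem invariant_of_tangent [CharZero k] [IsAlgClosed k] (hp : Semi.PrimeClosure ρ) {r : ℕ}
    (Wm : Matrix ν (Fin r) k) (Lm : Matrix (Fin r) ν k) (hLW : Lm * Wm = 1)
    (hW : ∀ y ∈ tangent ρ k, P.deriv k y * Wm = Wm * (Lm * (P.deriv k y * Wm))) (g : Γ) :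
    P.mat.map (ev (ρ g : Matrix (Fin n) (Fin n) k)) * Wm =
      Wm * (Lm * (P.mat.map (ev (ρ g : Matrix (Fin n) (Fin n) k)) * Wm)) := by
  classical
  obtain ⟨A, _, _, _, x, hx, hgen⟩ := exists_generic ρ hp
  let C := (MvPolynomial.C : k →+* MvPolynomial (Fin n × Fin n) k)
  have hCx : ∀ {α β : Type} (U : Matrix α β k), (U.map C).map (ev x) = U.map (algebraMap k A) := by
    intro α β U; ext a c; simp [C, ev]
  have hC1 : ∀ {α β : Type} (U : Matrix α β k) (g : Γ),
      (U.map C).map (ev (ρ g : Matrix (Fin n) (Fin n) k)) = U := by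
    intro α β U g; ext a c; simp [C, ev]
  set M := P.mat.map (ev x) * Wm.map (algebraMap k A) with hMdef
  set T := Lm.map (algebraMap k A) * M with hTdef
  set D : Matrix (Fin r) (Fin r) (MvPolynomial (Fin n × Fin n) k) :=
    Lm.map C * (P.mat * Wm.map C) with hD
  have hdet : IsUnit T.det := by
    refine isUnit_iff_ne_zero.2 fun h0 => ?_
    have h := (mem_vanish ρ _).1 (hgen D.det (by
      rw [AlgHom.map_det, AlgHom.mapMatrix_apply, hD, Matrix.map_mul, Matrix.map_mul, hCx, hCx]
      exact h0)) 1
    rw [AlgHom.map_det, AlgHom.mapMatrix_apply, hD, Matrix.map_mul, Matrix.map_mul, hC1, hC1,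
      _root_.map_one, Matrix.SpecialLinearGroup.coe_one, P.map_one, Matrix.one_mul, hLW,
      det_one] at h
    exact one_ne_zero h
  set N := M * T⁻¹ with hN
  have hNT : N * T = M := by
    rw [hN, Matrix.mul_assoc, nonsing_inv_mul _ hdet, Matrix.mul_one]
  have hconst : ∀ s b, ∃ c : k, algebraMap k A c = N s b := by
    intro s b
    refine exists_const fun φ hφ => ?_
    obtain ⟨hYt, hxφ⟩ := tangent_of_dual hx φ hφ
    set Y := x.adjugate * (x.map φ).map snd
    have hPx : ((P.mat.map (ev x)).map φ).map snd = P.mat.map (ev x) * P.deriv A Y := by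
      rw [← P.snd_move x Y, ← hxφ]
      congr 1
      ext1 s t
      exact ev_map φ x (P.mat s t)
    set c := Lm.map (algebraMap k A) * (P.deriv A Y * Wm.map (algebraMap k A)) with hc
    have hM : (M.map φ).map snd = M * c := by
      rw [hMdef, snd_map_mul φ hφ, snd_map_const, Matrix.mul_zero, add_zero, hPx,
        Matrix.mul_assoc, Matrix.mul_assoc, hc, ← stable_over P Wm Lm hW hYt]
    have hT : (T.map φ).map snd = T * c := by
      rw [hTdef, snd_map_mul φ hφ, snd_map_const, Matrix.zero_mul, zero_add, hM, ← Matrix.mul_assoc]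
    exact congrFun (congrFun (snd_quot_eq_zero φ hφ N M T c hdet hNT hM hT) s) b
  choose N₀ hN₀ using hconst
  have hid : ∀ g : Γ, P.mat.map (ev (ρ g : Matrix (Fin n) (Fin n) k)) * Wm =
      Matrix.of N₀ * (Lm * (P.mat.map (ev (ρ g : Matrix (Fin n) (Fin n) k)) * Wm)) := by
    intro g
    ext s b
    have h0 : ev x ((P.mat * Wm.map C - (Matrix.of N₀).map C * D) s b) = 0 := by
      rw [← Matrix.map_apply (f := ev x), Matrix.map_sub _ (map_sub _), hD]
      simp only [Matrix.map_mul, hCx]
      rw [show (Matrix.of N₀).map (algebraMap k A) = N from Matrix.ext hN₀, ← hMdef, ← hTdef, hNT,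
        sub_self, Matrix.zero_apply]
    have h := (mem_vanish ρ _).1 (hgen _ h0) g
    rw [← Matrix.map_apply (f := ev (ρ g : Matrix (Fin n) (Fin n) k)),
      Matrix.map_sub _ (map_sub _), hD] at h
    simp only [Matrix.map_mul, hC1] at h
    rwa [Matrix.sub_apply, sub_eq_zero] at h
  have h1 := hid 1
  rw [_root_.map_one, Matrix.SpecialLinearGroup.coe_one, P.map_one, Matrix.one_mul, hLW,
    Matrix.mul_one] at h1
  conv_lhs => rw [hid g, ← h1]

end Vale.Agent.P165.EX.Chev
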