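import Mathlib

/-!
# Weyl's theorem on complete reducibility

In characteristic zero, every invariant subspace of a finite-dimensional representation of a Lie
algebra with trivial radical has an invariant complement. The proof is the Casimir element of the
trace form of the representation, a Fitting decomposition and the passage to endomorphisms.
-/

namespace Vale.Agent.P165.EX.Chev

open Finset Module
attribute [local instance 100] LieRing.ofAssociativeRing

variable {k : Type} [Field k] [CharZero k] {L : Type} [LieRing L] [LieAlgebra k L]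
  [FiniteDimensional k L] [LieAlgebra.HasTrivialRadical k L]

/-- Ideals are perfect. -/
theorem lie_self_ideal (S : LieIdeal k L) : ⁅S, S⁆ = S := by
  set D : LieIdeal k L := ⁅S, S⁆
  have hDS : D ≤ S := LieSubmodule.lie_le_left S S
  set S' : LieIdeal k L := S ⊓ D.killingCompl k L
  have hS' : S' = ⊥ := by
    refine LieAlgebra.HasTrivialRadical.eq_bot_of_isSolvable (R := k) S'
      (hI := LieIdeal.isSolvable_of_killingForm_apply_lie_eq_zero S' fun x hx y hy => ?_)
    rw [LieModule.traceForm_comm]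
    exact (LieIdeal.mem_killingCompl k L D).1 hx.2 y
      (LieSubmodule.mono_lie inf_le_left inf_le_left hy)
  refine le_antisymm hDS (fun x hx => ?_)
  have hsup : D.toSubmodule ⊔ (killingForm k L).orthogonal D.toSubmodule = ⊤ := by
    refine (LinearMap.BilinForm.isCompl_orthogonal_iff_disjoint
      (LieModule.traceForm_isSymm k L L).isRefl |>.2 (disjoint_iff.2 ?_)).sup_eq_top
    refine eq_bot_iff.2 fun y hy => ?_
    have : y ∈ S' := ⟨hDS hy.1, (LieIdeal.mem_killingCompl k L D).2 hy.2⟩
    rw [hS'] at this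
    simpa using this
  obtain ⟨a, ha, b, hb, rfl⟩ := Submodule.mem_sup.1 (hsup ▸ Submodule.mem_top : x ∈ _)
  have hb0 : b ∈ S' :=
    ⟨by simpa using sub_mem hx (hDS ha), (LieIdeal.mem_killingCompl k L D).2 hb⟩
  rw [hS', LieSubmodule.mem_bot] at hb0
  rw [hb0, add_zero]
  exact ha

variable {M : Type} [AddCommGroup M] [Module k M] [FiniteDimensional k M]

/-- The trace form is nondegenerate on the image. -/
theorem map_eq_zero_of_trace (π : L →ₗ⁅k⁆ Module.End k M) {x : L}
    (hx : ∀ y, LinearMap.trace k M (π x * π y) = 0) : π x = 0 := by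
  letI := LieRingModule.compLieHom M π
  letI := LieModule.compLieHom M π
  let S : LieIdeal k L :=
    { LinearMap.ker (LieModule.traceForm k L M) with
      lie_mem := fun {z s} hs => by
        change LieModule.traceForm k L M ⁅z, s⁆ = 0
        refine LinearMap.ext fun y => ?_
        rw [LinearMap.zero_apply, ← lie_skew, map_neg, LinearMap.neg_apply, neg_eq_zero,
          LieModule.traceForm_apply_lie_apply]
        exact LinearMap.congr_fun hs ⁅z, y⁆ }
  have hxS : x ∈ S := LinearMap.ext fun y => hx y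
  have htr : LieModule.traceForm k S M = 0 := by
    ext a b
    exact LinearMap.congr_fun a.2 b.1
  have hnil := LieModule.isNilpotent_derivedSeries_of_traceForm_eq_zero htr
  have hperf : LieAlgebra.derivedSeries k S 1 = ⊤ := by
    rw [LieIdeal.derivedSeries_eq_derivedSeriesOfIdeal_comap]
    refine eq_top_iff.2 fun a _ => ?_
    rw [LieIdeal.mem_comap, LieAlgebra.derivedSeriesOfIdeal_succ,
      LieAlgebra.derivedSeriesOfIdeal_zero, lie_self_ideal]
    exact a.2
  obtain ⟨m, hm⟩ : ∃ m, LieModule.lowerCentralSeries k S M m = ⊥ := by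
    refine (LieModule.isNilpotent_iff k S M).1 ?_
    rw [LieModule.isNilpotent_iff_forall' (R := k)] at hnil ⊢
    exact fun a => hnil ⟨a, hperf ▸ LieSubmodule.mem_top a⟩
  set F := fun i => (LieModule.lowerCentralSeries k S M i).toSubmodule with hF
  have step : ∀ (i : ℕ) (a : S), ∀ v ∈ F i, π a v ∈ F (i + 1) := fun i a v hv => by
    change ⁅a, v⁆ ∈ LieModule.lowerCentralSeries k S M (i + 1)
    rw [LieModule.lowerCentralSeries_succ]
    exact LieSubmodule.lie_mem_lie (LieSubmodule.mem_top a) hv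
  have deep : ∀ j, ∀ a ∈ S, ∀ i, ∀ v ∈ F i, π a v ∈ F (i + j + 1) := by
    intro j
    induction j with
    | zero => exact fun a ha i v hv => step i ⟨a, ha⟩ v hv
    | succ j ih =>
      intro a ha
      rw [← lie_self_ideal S] at ha
      change a ∈ (⁅S, S⁆ : LieIdeal k L).toSubmodule at ha
      rw [LieSubmodule.lieIdeal_oper_eq_linear_span'] at ha
      induction ha using Submodule.span_induction with
      | mem c hc =>
        obtain ⟨p, hp, q, hq, rfl⟩ := hc
        intro i v hv
        rw [LieHom.map_lie, LieRing.of_associative_ring_bracket, LinearMap.sub_apply]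
        refine Submodule.sub_mem _ ?_ ?_
        · exact (Nat.add_assoc i (j + 1) 1 ▸ step (i + j + 1) ⟨p, hp⟩ _ (ih q hq i v hv) :
            π p (π q v) ∈ F (i + (j + 1) + 1))
        · have := ih q hq (i + 1) _ (step i ⟨p, hp⟩ v hv)
          rwa [show i + 1 + j + 1 = i + (j + 1) + 1 by ring] at this
      | zero => intro i v _; simp
      | add c e _ _ hc he =>
        intro i v hv; rw [map_add, LinearMap.add_apply]; exact add_mem (hc i v hv) (he i v hv)
      | smul t c _ hc =>
        intro i v hv; rw [map_smul, LinearMap.smul_apply]; exact Submodule.smul_mem _ _ (hc i v hv)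
  refine LinearMap.ext fun v => ?_
  have h := deep m x hxS 0 v (by simp [hF])
  have hle : LieModule.lowerCentralSeries k S M (0 + m + 1) ≤ ⊥ :=
    hm ▸ LieModule.antitone_lowerCentralSeries k S M (by omega)
  exact (LieSubmodule.mem_bot _).1 (hle h)

/-- A Casimir endomorphism of a nonzero representation. -/
theorem exists_casimir (π : L →ₗ⁅k⁆ Module.End k M) (hπ : π ≠ 0) :
    ∃ C : Module.End k M, (∀ x, π x * C = C * π x) ∧ LinearMap.trace k M C ≠ 0 ∧
      ∀ f : M →ₗ[k] k, (∀ x, f.comp (π x) = 0) → f.comp C = 0 := by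
  classical
  set E : Submodule k (Module.End k M) := LinearMap.range (π : L →ₗ[k] Module.End k M)
  let B : LinearMap.BilinForm k E :=
    ((LinearMap.mul k (Module.End k M)).compr₂ (LinearMap.trace k M)).compl₁₂ E.subtype E.subtype
  have hB : ∀ a b : E, B a b = LinearMap.trace k M (a.1 * b.1) := fun a b => rfl
  have hnd : B.Nondegenerate := by
    have hl : ∀ a : E, (∀ b, B a b = 0) → a = 0 := fun a h => by
      obtain ⟨x, hx⟩ := a.2
      refine Subtype.ext (hx.symm.trans (map_eq_zero_of_trace π fun y => ?_))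
      have := h ⟨π y, y, rfl⟩
      rw [hB, ← hx] at this
      exact this
    exact ⟨hl, fun a h => hl a fun b => by rw [hB, LinearMap.trace_mul_comm, ← hB]; exact h b⟩
  set e := Module.finBasis k E
  set d := B.dualBasis hnd e
  refine ⟨∑ i, (d i).1 * (e i).1, fun x => ?_, ?_, fun f hf => ?_⟩
  · have hbr : ∀ a : E, π x * a.1 - a.1 * π x ∈ E := fun a => by
      obtain ⟨y, hy⟩ := a.2
      exact ⟨⁅x, y⁆, by rw [← hy]; exact LieHom.map_lie π x y⟩
    set a := fun i l => B ⟨_, hbr (d i)⟩ (e l)
    have hd : ∀ i, π x * (d i).1 - (d i).1 * π x = ∑ l, a i l • (d l).1 := fun i => by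
      have h := congrArg Subtype.val (d.sum_repr ⟨_, hbr (d i)⟩)
      simp only [AddSubmonoidClass.coe_finsetSum, SetLike.val_smul, d,
        LinearMap.BilinForm.dualBasis_repr_apply] at h
      exact h.symm
    have he : ∀ i, π x * (e i).1 - (e i).1 * π x = ∑ l, (-a l i) • (e l).1 := fun i => by
      have h := congrArg Subtype.val (e.sum_repr ⟨_, hbr (e i)⟩)
      simp only [AddSubmonoidClass.coe_finsetSum, SetLike.val_smul] at h
      rw [← h]
      refine sum_congr rfl fun l _ => ?_
      congr 1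
      have hr : ∀ v : E, B (d l) v = e.repr v l := fun v => by
        conv_lhs => rw [← e.sum_repr v, map_sum]
        simp [d, LinearMap.BilinForm.apply_dualBasis_left hnd e]
      rw [← hr]
      simp only [a, hB, mul_sub, sub_mul, map_sub, neg_sub]
      simp only [← mul_assoc]
      rw [LinearMap.trace_mul_cycle k (d l).1 (e i).1 (π x)]
    rw [mul_sum, sum_mul, ← sub_eq_zero, ← sum_sub_distrib]
    calc ∑ i, (π x * ((d i).1 * (e i).1) - (d i).1 * (e i).1 * π x)
        = ∑ i, ((π x * (d i).1 - (d i).1 * π x) * (e i).1 +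
            (d i).1 * (π x * (e i).1 - (e i).1 * π x)) := sum_congr rfl fun i _ => by noncomm_ring
      _ = 0 := by
        simp only [hd, he, sum_mul, mul_sum, sum_add_distrib, smul_mul_assoc, mul_smul_comm]
        conv_lhs => arg 2; rw [sum_comm]
        simp [← sum_add_distrib]
  · rw [map_sum, sum_congr rfl fun i _ => show LinearMap.trace k M ((d i).1 * (e i).1) = 1 by
      rw [← hB]; simp [d, LinearMap.BilinForm.apply_dualBasis_left]]
    simp only [sum_const, card_univ, Fintype.card_fin, nsmul_eq_mul, mul_one]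
    refine Nat.cast_ne_zero.2 fun h0 => hπ (LieHom.ext fun x => ?_)
    have : E = ⊥ := Submodule.finrank_eq_zero.1 h0
    have hx : π x ∈ E := ⟨x, rfl⟩
    rw [this, Submodule.mem_bot] at hx
    simpa using hx
  · refine LinearMap.ext fun v => ?_
    rw [LinearMap.comp_apply, LinearMap.sum_apply, map_sum, LinearMap.zero_apply]
    refine sum_eq_zero fun i _ => ?_
    obtain ⟨y, hy⟩ := (d i).2
    rw [← hy]
    exact LinearMap.congr_fun (hf y) _

/-- The restriction of a representation to an invariant subspace. -/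
def restrictRep (π : L →ₗ⁅k⁆ Module.End k M) (U : Submodule k M) (hU : ∀ x, ∀ v ∈ U, π x v ∈ U) :
    L →ₗ⁅k⁆ Module.End k U where
  toFun x := (π x).restrict (hU x)
  map_add' x y := by ext v; simp
  map_smul' c x := by ext v; simp
  map_lie' {x y} := by ext v; simp [LieRing.of_associative_ring_bracket]

/-- An invariant functional is nonzero on some invariant vector. -/
theorem exists_fixed (π : L →ₗ⁅k⁆ Module.End k M) (f : M →ₗ[k] k) (hf : f ≠ 0)
    (hinv : ∀ x, f.comp (π x) = 0) : ∃ v, (∀ x, π x v = 0) ∧ f v ≠ 0 := by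
  induction h : finrank k M using Nat.strong_induction_on generalizing M with
  | _ d ih =>
    by_cases hπ : π = 0
    · obtain ⟨v, hv⟩ : ∃ v, f v ≠ 0 := by
        by_contra hc
        exact hf (LinearMap.ext fun v => not_not.1 fun h => hc ⟨v, h⟩)
      exact ⟨v, fun x => by simp [hπ], hv⟩
    obtain ⟨C, hcomm, htr, hfC⟩ := exists_casimir π hπ
    obtain ⟨N, hN⟩ := Filter.eventually_atTop.1 C.eventually_isCompl_ker_pow_range_pow
    have hsplit := hN (N + 1) (by omega)
    set U := LinearMap.ker (C ^ (N + 1))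
    have hU : ∀ x, ∀ v ∈ U, π x v ∈ U := fun x v hv => by
      have hc : Commute (π x) (C ^ (N + 1)) := Commute.pow_right (hcomm x) _
      rw [LinearMap.mem_ker, ← Module.End.mul_apply, ← hc.eq, Module.End.mul_apply,
        LinearMap.mem_ker.1 hv, map_zero]
    have hlt : finrank k U < d := by
      rw [← h]
      refine Submodule.finrank_lt fun htop => htr ?_
      exact (LinearMap.isNilpotent_trace_of_isNilpotent (⟨N + 1, LinearMap.ker_eq_top.1 htop⟩ :
        IsNilpotent C)).eq_zero
    have hfU : f.comp U.subtype ≠ 0 := fun h0 => hf <| LinearMap.ext fun v => by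
      obtain ⟨a, ha, b, ⟨c, rfl⟩, rfl⟩ :=
        Submodule.mem_sup.1 (hsplit.sup_eq_top ▸ Submodule.mem_top : v ∈ _)
      rw [map_add, show f a = 0 from LinearMap.congr_fun h0 ⟨a, ha⟩, zero_add, pow_succ',
        Module.End.mul_apply]
      exact LinearMap.congr_fun (hfC f hinv) _
    obtain ⟨v, hv, hfv⟩ := ih _ hlt (restrictRep π U hU) (f.comp U.subtype) hfU
      (fun x => LinearMap.ext fun v => LinearMap.congr_fun (hinv x) v.1) rfl
    exact ⟨v.1, fun x => congrArg Subtype.val (hv x), hfv⟩

/-- Weyl's theorem. -/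
theorem exists_complement (π : L →ₗ⁅k⁆ Module.End k M) (W : Submodule k M)
    (hW : ∀ x, ∀ v ∈ W, π x v ∈ W) :
    ∃ W', IsCompl W W' ∧ ∀ x, ∀ v ∈ W', π x v ∈ W' := by
  by_cases hW0 : W = ⊥
  · exact ⟨⊤, hW0 ▸ isCompl_bot_top, fun _ _ _ => Submodule.mem_top⟩
  obtain ⟨w, hw, hw0⟩ := Submodule.exists_mem_ne_zero_of_ne_bot hW0
  let H : Submodule k (Module.End k M) :=
    { carrier := {f | (∀ v, f v ∈ W) ∧ ∃ c : k, ∀ u ∈ W, f u = c • u}
      add_mem' := fun {f g} ⟨hf, c, hc⟩ ⟨hg, e, he⟩ =>
        ⟨fun v => add_mem (hf v) (hg v), c + e, fun u hu => by simp [hc u hu, he u hu, add_smul]⟩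
      zero_mem' := ⟨fun v => zero_mem _, 0, fun u _ => by simp⟩
      smul_mem' := fun t f ⟨hf, c, hc⟩ =>
        ⟨fun v => W.smul_mem t (hf v), t * c, fun u hu => by simp [hc u hu, mul_smul]⟩ }
  let πE : L →ₗ⁅k⁆ Module.End k (Module.End k M) := (LieAlgebra.ad k (Module.End k M)).comp π
  have key : ∀ x, ∀ f ∈ H, (∀ v, πE x f v ∈ W) ∧ ∀ u ∈ W, πE x f u = 0 := by
    rintro x f ⟨hf, c, hc⟩
    have e : ∀ v, πE x f v = π x (f v) - f (π x v) := fun v => by
      simp [πE, LieRing.of_associative_ring_bracket]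
    exact ⟨fun v => e v ▸ sub_mem (hW x _ (hf v)) (hf _), fun u hu => by
      rw [e, hc u hu, map_smul, hc _ (hW x u hu), sub_self]⟩
  have hH : ∀ x, ∀ f ∈ H, πE x f ∈ H := fun x f hf =>
    ⟨(key x f hf).1, 0, fun u hu => by rw [(key x f hf).2 u hu, zero_smul]⟩
  obtain ⟨ψ₀, hψ₀⟩ := not_forall.1 fun h => hw0 ((Module.forall_dual_apply_eq_zero_iff k w).1 h)
  obtain ⟨ψ, hψ⟩ : ∃ ψ : M →ₗ[k] k, ψ w = 1 :=
    ⟨(ψ₀ w)⁻¹ • ψ₀, by rw [LinearMap.smul_apply, smul_eq_mul, inv_mul_cancel₀ hψ₀]⟩
  let φ : H →ₗ[k] k := ψ.comp ((LinearMap.applyₗ w).comp H.subtype)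
  obtain ⟨p, hp⟩ := W.subtype.exists_leftInverse_of_injective W.ker_subtype
  have hpH : W.subtype.comp p ∈ H := ⟨fun v => (p v).2, 1, fun u hu => by
    rw [one_smul]; exact congrArg Subtype.val (LinearMap.congr_fun hp ⟨u, hu⟩)⟩
  have hφ : φ ≠ 0 := fun h0 => by
    have h1 := LinearMap.congr_fun h0 ⟨_, hpH⟩
    have h2 : W.subtype (p w) = w := congrArg Subtype.val (LinearMap.congr_fun hp ⟨w, hw⟩)
    simp only [φ, LinearMap.comp_apply, LinearMap.applyₗ_apply_apply, Submodule.subtype_apply,
      LinearMap.zero_apply] at h1 h2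
    rw [h2, hψ] at h1
    exact one_ne_zero h1
  obtain ⟨⟨f, hfr, c, hc⟩, hfix, hne⟩ := exists_fixed (restrictRep πE H hH) φ hφ fun x =>
    LinearMap.ext fun f => by
      change ψ (πE x f.1 w) = 0
      rw [(key x f.1 f.2).2 w hw, map_zero]
  have hc0 : c ≠ 0 := fun h => hne (by
    change ψ (f w) = 0
    rw [hc w hw, h, zero_smul, map_zero])
  refine ⟨LinearMap.ker f, ⟨disjoint_iff.2 (eq_bot_iff.2 fun u hu => ?_),
    codisjoint_iff.2 (eq_top_iff.2 fun v _ => ?_)⟩, fun x v hv => ?_⟩
  · have h := hu.2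
    rw [SetLike.mem_coe, LinearMap.mem_ker, hc u hu.1, smul_eq_zero] at h
    exact h.resolve_left hc0
  · refine Submodule.mem_sup.2 ⟨c⁻¹ • f v, W.smul_mem _ (hfr v), v - c⁻¹ • f v, ?_, by abel⟩
    rw [LinearMap.mem_ker, map_sub, map_smul, hc _ (hfr v), inv_smul_smul₀ hc0, sub_self]
  · have h := congrArg (fun g : H => g.1 v) (hfix x)
    simp only [restrictRep, LieHom.coe_mk, LinearMap.restrict_apply, πE, LieHom.comp_apply,
      LieAlgebra.ad_apply, LieRing.of_associative_ring_bracket, LinearMap.sub_apply,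
      Module.End.mul_apply, ZeroMemClass.coe_zero, LinearMap.zero_apply] at h
    rw [LinearMap.mem_ker.1 hv, map_zero, zero_sub, neg_eq_zero] at h
    exact h

end Vale.Agent.P165.EX.Chev
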