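import Vale.Agent.P165.EX.Chev.Invariant
import Vale.Agent.P165.EX.Chev.Weyl

/-!
# Chevalley's theorem for exterior powers

An irreducible group of matrices of determinant one with prime vanishing ideal, over an
algebraically closed field of characteristic zero, acts completely reducibly on every exterior
power.
-/

namespace Vale.Agent.P165.EX.Chev

open Matrix Finset TrivSqZeroExt
open scoped MatrixGroups
attribute [local instance 100] LieRing.ofAssociativeRing

variable {k : Type} [Field k] {n : ℕ} {Γ : Type} [Group Γ] {ν : Type} [Fintype ν] [DecidableEq ν]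

/-- The standard representation. -/
noncomputable def idRep (k : Type) [Field k] (n : ℕ) : PolyRep k n (Fin n) where
  mat := gen
  map_mul R _ _ a b := by rw [ev_gen, ev_gen, ev_gen]
  map_one := ev_gen _

theorem idRep_deriv (y : Matrix (Fin n) (Fin n) k) : (idRep k n).deriv k y = y := by
  ext i j
  simp [PolyRep.deriv, idRep, gen, ev, dual]

/-- The minors of the generic matrix. -/
noncomputable def cmpPoly (k : Type) [Field k] (n j : ℕ) : PolyRep k n (Sub n j) where
  mat := Matrix.of fun s t => ((gen (k := k)).submatrix (emb s) (emb t)).det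
  map_mul R _ _ a b := by
    have h : ∀ c : Matrix (Fin n) (Fin n) R,
        (Matrix.of fun s t : Sub n j => ((gen (k := k)).submatrix (emb s) (emb t)).det).map (ev c) =
        LinearMap.toMatrix ((Pi.basisFun R (Fin n)).exteriorPower j)
          ((Pi.basisFun R (Fin n)).exteriorPower j) (exteriorPower.map j (Matrix.toLin' c)) := by
      intro c
      ext s t
      rw [Matrix.map_apply, Matrix.of_apply, AlgHom.map_det, AlgHom.mapMatrix_apply,
        ← Matrix.submatrix_map, ev_gen, LinearMap.toMatrix_apply, exteriorPower.basis_repr_apply,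
        exteriorPower.basis_apply, exteriorPower.ιMulti_family, exteriorPower.map_apply_ιMulti,
        exteriorPower.ιMultiDual_apply_ιMulti, ← det_transpose]
      congr 1
      ext a b
      simp [emb, toLin'_apply, mulVec_single]
    rw [h, h, h, toLin'_mul, exteriorPower.map_comp,
      LinearMap.toMatrix_comp _ ((Pi.basisFun R (Fin n)).exteriorPower j)]
  map_one := by
    ext s t
    rw [Matrix.map_apply, Matrix.of_apply, AlgHom.map_det, AlgHom.mapMatrix_apply,
      ← Matrix.submatrix_map, ev_gen, ← cmp_one j]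
    rfl

theorem cmpPoly_eq (j : ℕ) (a : Matrix (Fin n) (Fin n) k) :
    (cmpPoly k n j).mat.map (ev a) = cmp j a := by
  ext s t
  change ev a (((gen (k := k)).submatrix (emb s) (emb t)).det) = _
  rw [AlgHom.map_det, AlgHom.mapMatrix_apply, ← Matrix.submatrix_map, ev_gen]
  rfl

/-- The matrix `a + ε y` on the space of a representation. -/
noncomputable def dual' (a y : Matrix ν ν k) : Matrix ν ν (TrivSqZeroExt k k) :=
  Matrix.of fun i j => inl (a i j) + inr (y i j)

omit [DecidableEq ν] in
theorem dual'_mul (a b y z : Matrix ν ν k) :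
    dual' a y * dual' b z = dual' (a * b) (a * z + y * b) := by
  ext i j
  · simp [dual', Matrix.mul_apply, TrivSqZeroExt.fst_sum]
  · simp [dual', Matrix.mul_apply, TrivSqZeroExt.snd_sum, sum_add_distrib, mul_comm]

/-- The differential of a representation respects brackets. -/
theorem PolyRep.deriv_lie (P : PolyRep k n ν) (x y : Matrix (Fin n) (Fin n) k) :
    P.deriv k (y * x - x * y) = P.deriv k y * P.deriv k x - P.deriv k x * P.deriv k y := by
  let R := TrivSqZeroExt k k
  have hconj : ∀ a b z : Matrix (Fin n) (Fin n) R, a * b = 1 →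
      P.deriv R (a * z * b) = P.mat.map (ev a) * P.deriv R z * P.mat.map (ev b) := by
    intro a b z hab
    have h : dual 1 (a * z * b) = dual a 0 * dual 1 z * dual b 0 := by
      rw [dual_mul, dual_mul, mul_one, hab]
      simp [mul_assoc]
    refine Matrix.ext fun s t => ?_
    change snd (ev (dual 1 (a * z * b)) (P.mat s t)) = _
    rw [h, ← Matrix.map_apply (f := ev (dual a 0 * dual 1 z * dual b 0)), P.map_mul, P.map_mul]
    simp only [Matrix.mul_apply, TrivSqZeroExt.snd_sum, DualNumber.snd_mul, Matrix.map_apply,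
      TrivSqZeroExt.fst_sum, TrivSqZeroExt.fst_mul, fst_ev_dual, snd_ev_dual]
    simp [PolyRep.deriv, snd_ev_dual]
  let a : Matrix (Fin n) (Fin n) R := dual 1 y
  let b : Matrix (Fin n) (Fin n) R := dual 1 (-y)
  have hab : a * b = 1 := by
    rw [dual_mul, one_mul, one_mul, mul_one, neg_add_cancel, dual_one]
  have h := congrArg (fun M : Matrix ν ν R => M.map (sndHom k k))
    (hconj a b (dual x 0) hab)
  rw [P.deriv_map, show a * dual x 0 * b = dual x (x * -y + y * x) by
    simp only [a, b]
    rw [dual_mul, dual_mul]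
    simp] at h
  have hs : ∀ M : Matrix (Fin n) (Fin n) k, ∀ N : Matrix (Fin n) (Fin n) k,
      (dual M N).map (sndHom k k) = N := fun M N => snd_dual M N
  rw [hs] at h
  have hd : ∀ z : Matrix (Fin n) (Fin n) k,
      P.mat.map (ev (dual 1 z)) = dual' (1 : Matrix ν ν k) (P.deriv k z) := fun z => by
    refine Matrix.ext fun s t => TrivSqZeroExt.ext ?_ ?_
    · rw [Matrix.map_apply, fst_ev_dual, ← Matrix.map_apply (f := ev 1), P.map_one]
      simp [dual']
    · simp [dual', PolyRep.deriv]
  have hx : P.deriv R (dual x 0) = dual' (P.deriv k x) 0 := by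
    refine Matrix.ext fun s t => TrivSqZeroExt.ext ?_ ?_
    · have := congrFun (congrFun (P.deriv_map (fstHom k k k).toLinearMap (dual x 0)) s) t
      rw [show (dual x 0).map (fstHom k k k).toLinearMap = x from fst_dual x 0] at this
      simpa [dual'] using this
    · have := congrFun (congrFun (P.deriv_map (sndHom k k) (dual x 0)) s) t
      simpa [dual', hs] using this
  rw [hd, hd, hx, dual'_mul, dual'_mul] at h
  rw [show y * x - x * y = x * -y + y * x by noncomm_ring]
  refine h.trans ?_
  ext s t
  simp [dual', sub_eq_add_neg, add_comm, Matrix.mul_apply]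

variable (ρ : Γ →* SL(n, k))

/-- The Lie algebra of the closure. -/
noncomputable def lie : LieSubalgebra k (Matrix (Fin n) (Fin n) k) :=
  { tangent ρ k with
    lie_mem' := fun {x y} hx hy => by
      rw [LieRing.of_associative_ring_bracket]
      exact tangent_lie hy hx }

/-- The differential as a representation of the Lie algebra. -/
noncomputable def derivRep (P : PolyRep k n ν) : lie ρ →ₗ⁅k⁆ Module.End k (ν → k) where
  toLinearMap := (Matrix.toLin' : Matrix ν ν k ≃ₗ[k] _).toLinearMap.comp
    ((P.deriv k).comp (lie ρ).toSubmodule.subtype)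
  map_lie' {x y} := by
    change Matrix.toLin' (P.deriv k ⁅(x : Matrix (Fin n) (Fin n) k), (y : Matrix (Fin n) (Fin n) k)⁆) =
      ⁅Matrix.toLin' (P.deriv k x), Matrix.toLin' (P.deriv k y)⁆
    rw [LieRing.of_associative_ring_bracket, LieRing.of_associative_ring_bracket, P.deriv_lie,
      map_sub, Matrix.toLin'_mul, Matrix.toLin'_mul]
    rfl

theorem derivRep_apply (P : PolyRep k n ν) (x : lie ρ) (v : ν → k) :
    derivRep ρ P x v = P.deriv k x *ᵥ v := rfl

/-- Subspaces stable under the differential are stable under the group. -/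
theorem group_stable [CharZero k] [IsAlgClosed k] (hp : Semi.PrimeClosure ρ) (P : PolyRep k n ν)
    (W : Submodule k (ν → k)) (hW : ∀ x, ∀ v ∈ W, derivRep ρ P x v ∈ W) (g : Γ) :
    ∀ v ∈ W, P.mat.map (ev (ρ g : Matrix (Fin n) (Fin n) k)) *ᵥ v ∈ W := by
  classical
  set b := Module.finBasis k W
  obtain ⟨p, hp'⟩ := W.subtype.exists_leftInverse_of_injective W.ker_subtype
  let inc : (Fin (Module.finrank k W) → k) →ₗ[k] (ν → k) :=
    W.subtype.comp b.equivFun.symm.toLinearMap
  let prj : (ν → k) →ₗ[k] (Fin (Module.finrank k W) → k) := b.equivFun.toLinearMap.comp p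
  have hpi : ∀ u, prj (inc u) = u := fun u => by
    have := LinearMap.congr_fun hp' (b.equivFun.symm u)
    simp only [LinearMap.comp_apply, LinearMap.id_apply] at this
    simp only [prj, inc, LinearMap.comp_apply, LinearEquiv.coe_coe]
    rw [this, LinearEquiv.apply_symm_apply]
  have hip : ∀ v ∈ W, inc (prj v) = v := fun v hv => by
    have := LinearMap.congr_fun hp' ⟨v, hv⟩
    simp only [LinearMap.comp_apply, LinearMap.id_apply, Submodule.subtype_apply] at this
    simp [prj, inc, this]
  have hin : ∀ u, inc u ∈ W := fun u => Submodule.coe_mem _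
  have key : ∀ (A : Matrix ν ν k), (∀ u, A *ᵥ inc u ∈ W) ↔
      A * LinearMap.toMatrix' inc =
        LinearMap.toMatrix' inc * (LinearMap.toMatrix' prj * (A * LinearMap.toMatrix' inc)) := by
    intro A
    rw [← (Matrix.toLin' : Matrix ν (Fin (Module.finrank k W)) k ≃ₗ[k] _).injective.eq_iff,
      Matrix.toLin'_mul, Matrix.toLin'_mul, Matrix.toLin'_mul, Matrix.toLin'_mul,
      Matrix.toLin'_toMatrix', Matrix.toLin'_toMatrix', LinearMap.ext_iff]
    refine ⟨fun h u => (hip _ (h u)).symm, fun h u => ?_⟩
    rw [show A *ᵥ inc u = _ from h u]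
    exact hin _
  have h := invariant_of_tangent P hp (LinearMap.toMatrix' inc) (LinearMap.toMatrix' prj) (by
    rw [← LinearMap.toMatrix'_comp, show prj.comp inc = LinearMap.id from LinearMap.ext hpi,
      LinearMap.toMatrix'_id]) (fun y hy => (key _).1 fun u => hW ⟨y, hy⟩ _ (hin u)) g
  intro v hv
  rw [← hip v hv]
  exact (key _).2 h _

/-- Subspaces stable under the group are stable under the differential. -/
theorem tangent_stable (P : PolyRep k n ν) (W : Submodule k (ν → k))
    (hW : ∀ g, ∀ v ∈ W, P.mat.map (ev (ρ g : Matrix (Fin n) (Fin n) k)) *ᵥ v ∈ W)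
    (x : lie ρ) : ∀ v ∈ W, derivRep ρ P x v ∈ W := by
  intro v hv
  rw [derivRep_apply]
  by_contra hne
  obtain ⟨l, hl, hlW⟩ := Submodule.exists_dual_map_eq_bot_of_notMem hne inferInstance
  have hlW' : ∀ u ∈ W, l u = 0 := fun u hu => by
    have : l u ∈ W.map l := Submodule.mem_map_of_mem hu
    rwa [hlW, Submodule.mem_bot] at this
  set f : MvPolynomial (Fin n × Fin n) k :=
    ∑ s, ∑ t, MvPolynomial.C (l (Pi.single s 1) * v t) * P.mat s t
  have hl' : ∀ A : Matrix ν ν k, l (A *ᵥ v) = ∑ s, ∑ t, l (Pi.single s 1) * v t * A s t := by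
    intro A
    conv_lhs => rw [pi_eq_sum_univ' (A *ᵥ v), map_sum]
    refine sum_congr rfl fun s _ => ?_
    rw [map_smul, smul_eq_mul, mulVec, dotProduct, sum_mul]
    exact sum_congr rfl fun t _ => by ring
  have hf : ∀ g, ev (ρ g : Matrix (Fin n) (Fin n) k) f = 0 := fun g => by
    rw [← hlW' _ (hW g v hv), hl']
    simp [f, ev]
  have h := congrArg TrivSqZeroExt.snd ((mem_tangent_iff (ρ := ρ) x.1).1 x.2 f hf)
  refine hl (Eq.trans (hl' _) (Eq.trans ?_ h))
  simp [f, map_sum, TrivSqZeroExt.snd_sum, PolyRep.deriv, ev, mul_comm,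
    TrivSqZeroExt.algebraMap_eq_inl]

variable {ρ}

/-- The Lie algebra of an irreducible group has trivial radical. -/
theorem lie_trivialRadical [CharZero k] [IsAlgClosed k] (hn : 0 < n)
    (hirr : ∀ W, Semi.Invariant (Semi.matRep ρ) W → W = ⊥ ∨ W = ⊤)
    (hp : Semi.PrimeClosure ρ) : LieAlgebra.HasTrivialRadical k (lie ρ) := by
  letI := LieRingModule.compLieHom (Fin n → k) (derivRep ρ (idRep k n))
  letI := LieModule.compLieHom (Fin n → k) (derivRep ρ (idRep k n))
  have : Nonempty (Fin n) := ⟨⟨0, hn⟩⟩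
  refine LieAlgebra.hasTrivialRadical_of_no_solvable_ideals fun I hI => ?_
  obtain ⟨χ, hχ⟩ := LieModule.exists_nontrivial_weightSpace_of_isSolvable k I (Fin n → k)
  set W := LieModule.weightSpaceOfIsLieTower k (L := lie ρ) (Fin n → k) (χ : I → k)
  have hWinv : ∀ x, ∀ v ∈ W.toSubmodule, derivRep ρ (idRep k n) x v ∈ W.toSubmodule :=
    fun x v hv => W.lie_mem hv
  have htop : W.toSubmodule = ⊤ := by
    refine (hirr _ fun g v hv => ?_).resolve_left fun h0 => ?_
    · have := group_stable ρ hp (idRep k n) W.toSubmodule hWinv g v hv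
      rwa [show (idRep k n).mat = gen from rfl, ev_gen] at this
    · obtain ⟨⟨v, hv⟩, hv0⟩ := exists_ne (0 : LieModule.weightSpace (Fin n → k) (χ : I → k))
      have : v ∈ W.toSubmodule := hv
      rw [h0, Submodule.mem_bot] at this
      exact hv0 (Subtype.ext this)
  refine (LieSubmodule.eq_bot_iff _).2 fun a ha => ?_
  have hscal : ∀ v : Fin n → k,
      (a : Matrix (Fin n) (Fin n) k) *ᵥ v = χ ⟨a, ha⟩ • v := fun v => by
    have hv : v ∈ W.toSubmodule := htop ▸ Submodule.mem_top
    have := (LieModule.mem_weightSpace _ _).1 hv ⟨a, ha⟩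
    rwa [← idRep_deriv (a : Matrix (Fin n) (Fin n) k)]
  have hmat : (a : Matrix (Fin n) (Fin n) k) = χ ⟨a, ha⟩ • 1 :=
    Matrix.ext_of_mulVec_single fun i => by rw [hscal, smul_mulVec, one_mulVec]
  have htr := tangent_trace (ρ := ρ) a.2
  rw [hmat, Matrix.trace_smul, Matrix.trace_one, Fintype.card_fin, smul_eq_mul, mul_eq_zero] at htr
  refine Subtype.ext ?_
  rw [hmat, htr.resolve_right (Nat.cast_ne_zero.2 hn.ne'), zero_smul]
  rfl

/-- Chevalley's theorem for exterior powers. -/
theorem reducible_cmp [CharZero k] [IsAlgClosed k] (hn : 0 < n)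
    (hirr : ∀ W, Semi.Invariant (Semi.matRep ρ) W → W = ⊥ ∨ W = ⊤)
    (hp : Semi.PrimeClosure ρ) (j : ℕ) : Semi.Reducible (Semi.cmpRep (Semi.matRep ρ) j) := by
  intro W hW
  have := lie_trivialRadical hn hirr hp
  have hWt : ∀ x, ∀ v ∈ W, derivRep ρ (cmpPoly k n j) x v ∈ W :=
    tangent_stable ρ _ W fun g v hv => by rw [cmpPoly_eq]; exact hW g v hv
  obtain ⟨W', hc, hW'⟩ := exists_complement (derivRep ρ (cmpPoly k n j)) W hWt
  refine ⟨W', hc, fun g v hv => ?_⟩
  have h := group_stable ρ hp (cmpPoly k n j) W' hW' g v hv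
  rw [cmpPoly_eq] at h
  exact h

end Vale.Agent.P165.EX.Chev
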