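import Vale.Agent.P165.EX.Semi.Transfer

/-!
# Points of the Zariski closure of a linear group over all algebras

A matrix over a `k`-algebra is a point when every polynomial vanishing on the group vanishes at
it. Points are closed under products and adjugates; this gives the tangent space at the identity.
-/

namespace Vale.Agent.P165.EX.Chev

open Matrix Finset
open scoped MatrixGroups

variable {k : Type} [Field k] {n : ℕ} {Γ : Type} [Group Γ] (ρ : Γ →* SL(n, k))
variable {R S : Type} [CommRing R] [Algebra k R] [CommRing S] [Algebra k S]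

/-- Evaluation of polynomials in the entries at a matrix. -/
noncomputable def ev (a : Matrix (Fin n) (Fin n) R) : MvPolynomial (Fin n × Fin n) k →ₐ[k] R :=
  MvPolynomial.aeval fun e => a e.1 e.2

theorem ev_map (σ : R →ₐ[k] S) (a : Matrix (Fin n) (Fin n) R) (f : MvPolynomial (Fin n × Fin n) k) :
    σ (ev a f) = ev (a.map σ) f := by
  change (σ.comp (ev a)) f = ev (a.map σ) f
  refine congrFun (congrArg DFunLike.coe (MvPolynomial.algHom_ext fun e => ?_)) f
  simp [ev]

/-- The generic matrix. -/
noncomputable def gen : Matrix (Fin n) (Fin n) (MvPolynomial (Fin n × Fin n) k) :=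
  Matrix.of fun i j => MvPolynomial.X (i, j)

theorem ev_gen (a : Matrix (Fin n) (Fin n) R) : (gen (k := k)).map (ev a) = a := by
  ext i j; simp [gen, ev]

/-- The group element as a matrix over any algebra. -/
noncomputable def el (R : Type) [CommRing R] [Algebra k R] (g : Γ) : Matrix (Fin n) (Fin n) R :=
  (ρ g : Matrix (Fin n) (Fin n) k).map (algebraMap k R)

/-- A point of the closure: every polynomial vanishing on the group vanishes there. -/
def IsPt (a : Matrix (Fin n) (Fin n) R) : Prop :=
  ∀ f : MvPolynomial (Fin n × Fin n) k,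
    (∀ g, ev (ρ g : Matrix (Fin n) (Fin n) k) f = 0) → ev a f = 0

theorem isPt_el (g : Γ) : IsPt ρ (el ρ R g) := fun f hf => by
  rw [el, ← show ⇑(Algebra.ofId k R) = algebraMap k R from rfl, ← ev_map, hf g, map_zero]

variable {ρ}

theorem IsPt.map {a : Matrix (Fin n) (Fin n) R} (ha : IsPt ρ a) (σ : R →ₐ[k] S) :
    IsPt ρ (a.map σ) := fun f hf => by rw [← ev_map, ha f hf, map_zero]

/-- A polynomial over an algebra vanishing on the group vanishes at every point. -/
theorem vanish_ext {a : Matrix (Fin n) (Fin n) R} (ha : IsPt ρ a)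
    (H : MvPolynomial (Fin n × Fin n) R)
    (hH : ∀ g, MvPolynomial.eval (fun e => el ρ R g e.1 e.2) H = 0) :
    MvPolynomial.eval (fun e => a e.1 e.2) H = 0 := by
  classical
  set B := Module.Free.chooseBasis k R
  set I := H.support.biUnion fun s => (B.repr (H.coeff s)).support
  set Hi : Module.Free.ChooseBasisIndex k R → MvPolynomial (Fin n × Fin n) k := fun i =>
    ∑ s ∈ H.support, MvPolynomial.monomial s (B.repr (H.coeff s) i) with hHi
  have expand : ∀ x : Matrix (Fin n) (Fin n) R,
      MvPolynomial.eval (fun e => x e.1 e.2) H = ∑ i ∈ I, B i * ev x (Hi i) := by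
    intro x
    simp only [hHi, ev, map_sum, mul_sum, MvPolynomial.aeval_monomial]
    rw [sum_comm, MvPolynomial.eval_eq']
    refine sum_congr rfl fun s hs => ?_
    simp only [Finsupp.prod_fintype _ _ (fun _ => pow_zero _), ← mul_assoc, ← sum_mul]
    congr 1
    conv_lhs => rw [← B.linearCombination_repr (H.coeff s)]
    rw [Finsupp.linearCombination_apply, Finsupp.sum_of_support_subset (s := I) _
      (subset_biUnion_of_mem (fun s => (B.repr (H.coeff s)).support) hs) _ (by simp)]
    exact sum_congr rfl fun i _ => by rw [Algebra.smul_def, mul_comm]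
  have hv : ∀ i ∈ I, ∀ g, ev (ρ g : Matrix (Fin n) (Fin n) k) (Hi i) = 0 := by
    intro i hi g
    have h0 := (expand (el ρ R g)).symm.trans (hH g)
    have h1 : ∑ l ∈ I, ev (ρ g : Matrix (Fin n) (Fin n) k) (Hi l) • B l = 0 := by
      refine Eq.trans (sum_congr rfl fun l _ => ?_) h0
      rw [el, ← show ⇑(Algebra.ofId k R) = algebraMap k R from rfl, ← ev_map, Algebra.smul_def,
        mul_comm]
      rfl
    exact linearIndependent_iff'.1 B.linearIndependent I _ h1 i hi
  rw [expand]
  exact sum_eq_zero fun i hi => by rw [ha _ (hv i hi), mul_zero]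

theorem IsPt.mul {a b : Matrix (Fin n) (Fin n) R} (ha : IsPt ρ a) (hb : IsPt ρ b) :
    IsPt ρ (a * b) := by
  intro f hf
  set H : MvPolynomial (Fin n × Fin n) R :=
    ev (R := MvPolynomial (Fin n × Fin n) R)
      ((Matrix.of fun i j => MvPolynomial.X (i, j)) * b.map MvPolynomial.C) f
  have hev : ∀ x : Matrix (Fin n) (Fin n) R,
      MvPolynomial.eval (fun e => x e.1 e.2) H = ev (x * b) f := by
    intro x
    let σ : MvPolynomial (Fin n × Fin n) R →ₐ[k] R :=
      (MvPolynomial.aeval fun e => x e.1 e.2 : MvPolynomial (Fin n × Fin n) R →ₐ[R] R).restrictScalars k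
    change σ H = _
    rw [ev_map]
    congr 2
    ext i j
    simp [σ, Matrix.mul_apply]
  rw [← hev]
  refine vanish_ext ha H fun g => ?_
  rw [hev]
  have hfg : ∀ h, ev (ρ h : Matrix (Fin n) (Fin n) k)
      (ev (el ρ (MvPolynomial (Fin n × Fin n) k) g * gen (k := k)) f) = 0 := fun h => by
    rw [ev_map, Matrix.map_mul, ev_gen]
    convert hf (g * h) using 3
    rw [map_mul, Matrix.SpecialLinearGroup.coe_mul]
    congr 1
    ext i j; simp [el]
  have := hb _ hfg
  rwa [ev_map, Matrix.map_mul, ev_gen, show (el ρ (MvPolynomial (Fin n × Fin n) k) g).map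
    (ev b) = el ρ R g by ext i j; simp [el]] at this

theorem IsPt.adjugate {a : Matrix (Fin n) (Fin n) R} (ha : IsPt ρ a) : IsPt ρ a.adjugate := by
  intro f hf
  have h := ha (ev ((gen (k := k)).adjugate) f) fun g => by
    rw [ev_map, ← AlgHom.mapMatrix_apply, AlgHom.map_adjugate, AlgHom.mapMatrix_apply, ev_gen]
    convert hf g⁻¹ using 3
    rw [map_inv, Matrix.SpecialLinearGroup.coe_inv]
  rwa [ev_map, ← AlgHom.mapMatrix_apply, AlgHom.map_adjugate, AlgHom.mapMatrix_apply, ev_gen] at h

theorem IsPt.det {a : Matrix (Fin n) (Fin n) R} (ha : IsPt ρ a) : a.det = 1 := by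
  have h := ha ((gen (k := k)).det - 1) fun g => by
    rw [map_sub, map_one, AlgHom.map_det, AlgHom.mapMatrix_apply, ev_gen,
      Matrix.SpecialLinearGroup.det_coe, sub_self]
  rwa [map_sub, map_one, AlgHom.map_det, AlgHom.mapMatrix_apply, ev_gen, sub_eq_zero] at h

end Vale.Agent.P165.EX.Chev
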