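import Vale.Agent.P165.EX.Chev.Points

/-!
# The tangent space at the identity of the closure of a linear group
-/

namespace Vale.Agent.P165.EX.Chev

open Matrix Finset TrivSqZeroExt
open scoped MatrixGroups

variable {k : Type} [Field k] {n : ℕ} {Γ : Type} [Group Γ] {ρ : Γ →* SL(n, k)}
variable {R : Type} [CommRing R] [Algebra k R]

/-- The matrix `a + ε y` over dual numbers. -/
noncomputable def dual (a y : Matrix (Fin n) (Fin n) R) :
    Matrix (Fin n) (Fin n) (TrivSqZeroExt R R) :=
  Matrix.of fun i j => inl (a i j) + inr (y i j)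

theorem fst_dual (a y : Matrix (Fin n) (Fin n) R) : (dual a y).map fst = a := by
  ext i j; simp [dual]

theorem snd_dual (a y : Matrix (Fin n) (Fin n) R) : (dual a y).map snd = y := by
  ext i j; simp [dual]

theorem fst_ev_dual (a y : Matrix (Fin n) (Fin n) R) (f : MvPolynomial (Fin n × Fin n) k) :
    fst (ev (dual a y) f) = ev a f := by
  rw [show fst (ev (dual a y) f) = fstHom k R R (ev (dual a y) f) from rfl, ev_map]
  congr 1
  exact congrArg _ (fst_dual a y)

/-- The chain rule. -/
theorem snd_ev_dual (a y : Matrix (Fin n) (Fin n) R) (f : MvPolynomial (Fin n × Fin n) k) :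
    snd (ev (dual a y) f) = ∑ e, ev a (MvPolynomial.pderiv e f) * y e.1 e.2 := by
  classical
  induction f using MvPolynomial.induction_on with
  | C c => simp [ev, TrivSqZeroExt.algebraMap_eq_inl']
  | add p q hp hq => simp [hp, hq, add_mul, sum_add_distrib]
  | mul_X p e hp =>
    rw [map_mul, DualNumber.snd_mul, fst_ev_dual, hp]
    simp only [ev, MvPolynomial.aeval_X, Derivation.leibniz, smul_eq_mul, map_add, map_mul,
      MvPolynomial.pderiv_X, dual, Matrix.of_apply, snd_add, snd_inl, snd_inr, zero_add, fst_add,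
      fst_inl, fst_inr, add_zero, add_mul, sum_add_distrib, sum_mul]
    congr 1
    · rw [sum_eq_single e (fun b _ hb => by simp [hb.symm]) (by simp)]
      simp
    · exact sum_congr rfl fun x _ => by ring

variable (ρ)

/-- The tangent vectors at the identity, over an algebra. -/
noncomputable def tangent (R : Type) [CommRing R] [Algebra k R] :
    Submodule R (Matrix (Fin n) (Fin n) R) where
  carrier := {y | ∀ f : MvPolynomial (Fin n × Fin n) k,
    (∀ g, ev (ρ g : Matrix (Fin n) (Fin n) k) f = 0) →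
      ∑ e, ev (1 : Matrix (Fin n) (Fin n) R) (MvPolynomial.pderiv e f) * y e.1 e.2 = 0}
  add_mem' {a b} ha hb f hf := by
    simp [mul_add, sum_add_distrib, ha f hf, hb f hf]
  zero_mem' f _ := by simp
  smul_mem' c x hx f hf := by
    simp [mul_left_comm _ c, ← mul_sum, hx f hf]

variable {ρ}

theorem mem_tangent_iff (y : Matrix (Fin n) (Fin n) R) :
    y ∈ tangent ρ R ↔ IsPt ρ (dual 1 y) := by
  refine ⟨fun h f hf => TrivSqZeroExt.ext ?_ ?_, fun h f hf => ?_⟩
  · rw [fst_ev_dual, TrivSqZeroExt.fst_zero, show (1 : Matrix (Fin n) (Fin n) R) = el ρ R 1 by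
      rw [el, map_one, Matrix.SpecialLinearGroup.coe_one, Matrix.map_one _ (map_zero _) (map_one _)]]
    exact isPt_el ρ 1 f hf
  · rw [snd_ev_dual, TrivSqZeroExt.snd_zero, h f hf]
  · rw [← snd_ev_dual, h f hf, TrivSqZeroExt.snd_zero]

/-- Linear functions on the algebra send tangent vectors to tangent vectors. -/
theorem tangent_map {y : Matrix (Fin n) (Fin n) R} (hy : y ∈ tangent ρ R) (φ : R →ₗ[k] k) :
    y.map φ ∈ tangent ρ k := by
  intro f hf
  have h : ∀ e, ev (1 : Matrix (Fin n) (Fin n) R) (MvPolynomial.pderiv e f) =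
      algebraMap k R (ev (1 : Matrix (Fin n) (Fin n) k) (MvPolynomial.pderiv e f)) := fun e => by
    rw [← show ⇑(Algebra.ofId k R) = algebraMap k R from rfl, ev_map,
      Matrix.map_one _ (map_zero _) (map_one _)]
  rw [← map_zero φ, ← hy f hf, map_sum]
  refine sum_congr rfl fun e _ => ?_
  rw [h e, ← Algebra.smul_def, map_smul, smul_eq_mul, Matrix.map_apply]

theorem tangent_trace {y : Matrix (Fin n) (Fin n) k} (hy : y ∈ tangent ρ k) : y.trace = 0 := by
  classical
  have h := congrArg TrivSqZeroExt.snd ((mem_tangent_iff y).1 hy).det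
  rw [TrivSqZeroExt.snd_one] at h
  refine Eq.trans ?_ h
  rw [show dual (1 : Matrix (Fin n) (Fin n) k) y =
      1 + (inr 1 : TrivSqZeroExt k k) • y.map inl by
    ext i j <;> simp [dual, Matrix.one_apply] <;> split_ifs <;> simp]
  rw [Matrix.det_one_add_smul]
  simp [Matrix.trace, pow_two, TrivSqZeroExt.snd_sum, TrivSqZeroExt.fst_sum]

theorem dual_mul (a b y z : Matrix (Fin n) (Fin n) R) :
    dual a y * dual b z = dual (a * b) (a * z + y * b) := by
  ext i j
  · simp [dual, Matrix.mul_apply, TrivSqZeroExt.fst_sum]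
  · simp [dual, Matrix.mul_apply, TrivSqZeroExt.snd_sum, sum_add_distrib, mul_comm]

theorem map_inl (a : Matrix (Fin n) (Fin n) R) :
    a.map (inl : R → TrivSqZeroExt R R) = dual a 0 := by
  ext i j <;> simp [dual]

theorem dual_one : dual (1 : Matrix (Fin n) (Fin n) R) 0 = 1 := by
  rw [← map_inl, Matrix.map_one _ (inl_zero R) (inl_one R)]

theorem adjugate_dual {y : Matrix (Fin n) (Fin n) k} (hy : y ∈ tangent ρ k) :
    (dual (1 : Matrix (Fin n) (Fin n) k) y).adjugate = dual 1 (-y) := by
  have hd := ((mem_tangent_iff y).1 hy).det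
  have h1 : dual (1 : Matrix (Fin n) (Fin n) k) (-y) * dual 1 y = 1 := by
    rw [dual_mul, one_mul, one_mul, mul_one, add_neg_cancel, dual_one]
  calc (dual (1 : Matrix (Fin n) (Fin n) k) y).adjugate
      = (dual 1 (-y) * dual 1 y) * (dual 1 y).adjugate := by rw [h1, one_mul]
    _ = dual 1 (-y) := by rw [mul_assoc, mul_adjugate, hd, one_smul, mul_one]

/-- Tangent vectors are stable under brackets. -/
theorem tangent_lie {x y : Matrix (Fin n) (Fin n) k} (hx : x ∈ tangent ρ k)
    (hy : y ∈ tangent ρ k) : y * x - x * y ∈ tangent ρ k := by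
  classical
  have hAd : ∀ g : Γ, (ρ g : Matrix (Fin n) (Fin n) k) * x *
      (ρ g : Matrix (Fin n) (Fin n) k).adjugate ∈ tangent ρ k := fun g => by
    refine (mem_tangent_iff _).2 ?_
    have h := ((isPt_el ρ (R := TrivSqZeroExt k k) g).mul ((mem_tangent_iff x).1 hx)).mul
      (isPt_el ρ (R := TrivSqZeroExt k k) g).adjugate
    convert h using 1
    · rfl
    simp only [el]
    rw [← RingHom.mapMatrix_apply, ← RingHom.map_adjugate, RingHom.mapMatrix_apply,
      RingHom.mapMatrix_apply, TrivSqZeroExt.algebraMap_eq_inl, map_inl, map_inl, dual_mul,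
      dual_mul]
    simp [mul_adjugate]
  intro f hf
  set c := fun e => ev (1 : Matrix (Fin n) (Fin n) k) (MvPolynomial.pderiv e f) with hc
  set q : MvPolynomial (Fin n × Fin n) k := ∑ e, MvPolynomial.C (c e) *
    ((gen (k := k) * x.map MvPolynomial.C * (gen (k := k)).adjugate) :
      Matrix (Fin n) (Fin n) (MvPolynomial (Fin n × Fin n) k)) e.1 e.2
  have hq : ∀ (R : Type) [CommRing R] [Algebra k R] (a : Matrix (Fin n) (Fin n) R),
      ev a q = ∑ e, algebraMap k R (c e) *
        (a * x.map (algebraMap k R) * a.adjugate) e.1 e.2 := by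
    intro R _ _ a
    simp only [q, map_sum, map_mul]
    refine sum_congr rfl fun e _ => ?_
    congr 1
    · simp [ev]
    · have hadj : ((gen (k := k) (n := n)).adjugate).map (ev a) = a.adjugate := by
        rw [← AlgHom.mapMatrix_apply, AlgHom.map_adjugate, AlgHom.mapMatrix_apply, ev_gen]
      rw [← Matrix.map_apply (f := ev a), Matrix.map_mul, Matrix.map_mul, ev_gen, hadj]
      rw [show (x.map (MvPolynomial.C : k →+* MvPolynomial (Fin n × Fin n) k)).map (ev a) =
        x.map (algebraMap k R) by ext i j; simp [ev]]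
  have h := congrArg TrivSqZeroExt.snd ((mem_tangent_iff y).1 hy q fun g => by
    rw [hq k]; simpa [hc] using hAd g f hf)
  rw [hq, adjugate_dual hy, TrivSqZeroExt.algebraMap_eq_inl, map_inl, dual_mul, dual_mul,
    TrivSqZeroExt.snd_zero, TrivSqZeroExt.snd_sum] at h
  refine Eq.trans (sum_congr rfl fun e _ => ?_) h
  simp [dual, hc, sub_eq_add_neg, add_comm, mul_comm, add_mul]

end Vale.Agent.P165.EX.Chev
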